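import Vale.Agent.P244.SBridge

open scoped Manifold ContDiff
open Vale.Agent.P244.St

/-- A closed manifold of dimension `n ≥ 4` with a smooth Ricci flow on a finite time interval
`[0,T)`, with bounded scalar curvature, that does not extend past `T`. -/
theorem Vale.Agent.Results.P244.Counter.result :
    ∃ n : ℕ, 4 ≤ n ∧ ∃ (M : Type) (_ : TopologicalSpace M)
      (_ : ChartedSpace (EuclideanSpace ℝ (Fin n)) M) (_ : IsManifold (𝓡 n) ∞ M),
      CompactSpace M ∧ T2Space M ∧ ConnectedSpace M ∧
        HasBadFlow M (EuclideanSpace.basisFun (Fin n) ℝ).toBasis :=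
  Vale.Agent.P244.main'
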